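import Vale.Agent.P050.R4.H22.Def

/-!
# P050, books and caps: graphs with a hub vertex are built vertex by vertex
-/

namespace Vale.Agent.P050.Books

open Finset

variable {V : Type} [DecidableEq V]

theorem Cl.mono {F F' : Set (Finset V × Finset V)} (h : F ⊆ F') {Q S : Finset V}
    (hc : Cl F Q S) : Cl F' Q S := by
  induction hc with
  | base h1 => exact Cl.base (h h1)
  | sub _ h2 ih => exact Cl.sub ih h2
  | flip _ h2 ih => exact Cl.flip ih h2
  | flip' _ ih => exact Cl.flip' ih

/-- the invariant of the second stage: `Tr z` is the trace of `z` -/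
def BookInv (A0 : Finset V) (Tr : V → Finset V) (F : Set (Finset V × Finset V))
    (Z : Finset V) : Prop :=
  ∀ Q S : Finset V, Q.Nonempty → Q ⊆ A0 → S ⊆ Z →
    (∃ z0, ∀ z ∈ S, Q ⊆ Tr z ∧ (z ≠ z0 → Tr z = Q)) → Cl F Q S

theorem BookInv.step {A0 : Finset V} {Tr : V → Finset V} {F : Set (Finset V × Finset V)}
    {Z : Finset V} (hI : BookInv A0 Tr F Z) (z : V) (hT : Tr z ⊆ A0)
    (hne : (Tr z).Nonempty) (hord : ∀ x ∈ Z, (Tr z).card ≤ (Tr x).card) :
    BookInv A0 Tr (F ∪ {p | p.1 = Tr z ∧ ∃ S, Cl F (Tr z) S ∧ p.2 = insert z S})
      (insert z Z) := by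
  intro Q S hQ hQA hS ⟨z0, h0⟩
  have hmono : F ⊆ F ∪ {p : Finset V × Finset V | p.1 = Tr z ∧
      ∃ S, Cl F (Tr z) S ∧ p.2 = insert z S} := Set.subset_union_left
  by_cases hzS : z ∈ S
  · by_cases hTQ : Tr z = Q
    · -- the recorded book
      have h1 : Cl F Q (S.erase z) := by
        refine hI Q (S.erase z) hQ hQA ?_ ⟨z0, fun x hx => h0 x (mem_of_mem_erase hx)⟩
        intro x hx
        have := hS (mem_of_mem_erase hx)
        rcases mem_insert.1 this with h2 | h2
        · exact absurd h2 (ne_of_mem_erase hx)
        · exact h2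
      have h2 : (Q, insert z (S.erase z)) ∈ (F ∪ {p : Finset V × Finset V | p.1 = Tr z ∧
          ∃ S, Cl F (Tr z) S ∧ p.2 = insert z S}) := by
        right
        exact ⟨hTQ.symm, S.erase z, hTQ ▸ h1, rfl⟩
      have h3 := Cl.base h2
      rwa [insert_erase hzS] at h3
    · -- the exceptional vertex
      have hz0 : z = z0 := by
        by_contra h1
        exact hTQ ((h0 z hzS).2 h1)
      have hsub : Q ⊆ Tr z := (h0 z hzS).1
      have hlt : Q.card < (Tr z).card :=
        Finset.card_lt_card (Finset.ssubset_iff_subset_ne.2 ⟨hsub, fun h1 => hTQ h1.symm⟩)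
      have hSz : S = {z} := by
        refine Finset.eq_singleton_iff_unique_mem.2 ⟨hzS, ?_⟩
        intro x hx
        by_contra hxz
        have h1 : Tr x = Q := (h0 x hx).2 (by rw [← hz0]; exact hxz)
        have h2 : x ∈ Z := by
          rcases mem_insert.1 (hS hx) with h3 | h3
          · exact absurd h3 hxz
          · exact h3
        have h3 := hord x h2
        rw [h1] at h3
        omega
      rw [hSz]
      have h1 : Cl F (Tr z) ∅ := hI (Tr z) ∅ hne hT (empty_subset _) ⟨z, by simp⟩
      have h2 : (Tr z, insert z ∅) ∈ (F ∪ {p : Finset V × Finset V | p.1 = Tr z ∧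
          ∃ S, Cl F (Tr z) S ∧ p.2 = insert z S}) := by
        right
        exact ⟨rfl, ∅, h1, rfl⟩
      have h3 := Cl.base h2
      rw [insert_empty_eq] at h3
      exact Cl.flip (Cl.sub (Cl.flip' h3) hsub) hQ
  · refine Cl.mono hmono (hI Q S hQ hQA ?_ ⟨z0, h0⟩)
    intro x hx
    rcases mem_insert.1 (hS hx) with h3 | h3
    · exact absurd (h3 ▸ hx) hzS
    · exact h3

variable [Fintype V]

open Classical in
/-- Let `b` be a vertex and `A0` a nonempty set of neighbours of `b` such that each vertex `w` of
the other side outside `A0` has a nonempty set `Q` in `A0`, adjacent to all neighbours `z` of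
`w`, such that each of these `z`, with at most one exception, has no other neighbour in `A0`.
Then the graph is built. -/
theorem built_of_hub (H : SimpleGraph V) (side : V → Bool)
    (hs : ∀ u v, H.Adj u v → side u ≠ side v) (hiso : ∀ v, ∃ u, H.Adj v u) (b : V)
    (A0 : Finset V) (_hA : A0.Nonempty) (hb : ∀ x ∈ A0, H.Adj b x)
    (hcap : ∀ w, side w ≠ side b → w ∉ A0 → ∃ Q : Finset V, Q.Nonempty ∧ Q ⊆ A0 ∧
      ∃ z0, ∀ z, H.Adj w z → (∀ x ∈ Q, H.Adj z x) ∧
        (z ≠ z0 → ∀ x ∈ A0, H.Adj z x → x ∈ Q)) :
    ∃ F, Built H univ F := by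
  -- the parts
  set B : Finset V := univ.filter fun x => side x = side b ∧ x ≠ b with hB
  set A1 : Finset V := univ.filter fun x => side x ≠ side b ∧ x ∉ A0 with hA1
  set Tr : V → Finset V := fun z => A0.filter fun x => H.Adj z x with hTr
  have same : ∀ u v, side u = side v → ¬ H.Adj u v := fun u v h1 h2 => hs u v h2 h1
  have sideA0 : ∀ x ∈ A0, side x ≠ side b := fun x hx => (hs b x (hb x hx)).symm
  have hbA0 : b ∉ A0 := fun h1 => sideA0 b h1 rfl
  have sideB : ∀ x ∈ B, side x = side b := fun x hx => (mem_filter.1 hx).2.1
  have hbB : b ∉ B := fun h1 => (mem_filter.1 h1).2.2 rfl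
  have trb : Tr b = A0 := by
    simp only [hTr]
    exact Finset.filter_true_of_mem hb
  -- first stage: the set `A0`
  have st1 : ∀ A : Finset V, A ⊆ A0 → ∃ F, Built H (insert b A) F ∧ Cl F {b} A := by
    intro A
    induction A using Finset.induction_on with
    | empty =>
      intro _
      exact ⟨_, Built.point b, Cl.base rfl⟩
    | insert a A ha ih =>
      intro hA
      obtain ⟨F, hF, hc⟩ := ih ((subset_insert a A).trans hA)
      have ha0 : a ∈ A0 := hA (mem_insert_self a A)
      have hab : a ≠ b := fun h1 => hbA0 (h1 ▸ ha0)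
      have hadj : H.Adj b a := hb a ha0
      have h1 : Built H (insert a (insert b A)) (F ∪ {p | p.1 = {b} ∧
          ∃ S, Cl F {b} S ∧ p.2 = insert a S}) := by
        refine Built.clone hF ?_ (singleton_nonempty b) ?_ ?_ ?_
        · intro h2
          rcases mem_insert.1 h2 with h3 | h3
          · exact hab h3
          · exact ha h3
        · intro x hx
          rw [mem_singleton.1 hx]
          exact mem_insert_self b A
        · intro x hx
          rw [mem_singleton]
          rcases mem_insert.1 hx with h3 | h3
          · rw [h3]; exact ⟨fun _ => rfl, fun _ => hadj.symm⟩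
          · constructor
            · intro h4
              exfalso
              have h5 := sideA0 x (hA (mem_insert_of_mem h3))
              have h6 := sideA0 a ha0
              have h7 := hs a x h4
              revert h5 h6 h7
              cases side x <;> cases side a <;> cases side b <;> simp
            · intro h4
              rw [h4]; exact hadj.symm
        · exact Cl.sub hc (empty_subset _)
      rw [Finset.insert_comm] at h1
      refine ⟨_, h1, Cl.base (Or.inr ⟨rfl, A, hc, rfl⟩)⟩
  obtain ⟨F1, hF1, hc1⟩ := st1 A0 (Subset.refl _)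
  -- second stage: the other vertices of the side of `b`
  have trA0 : ∀ z, Tr z ⊆ A0 := fun z => Finset.filter_subset _ _
  have trne : ∀ z ∈ B, (Tr z).Nonempty := by
    intro z hz
    obtain ⟨u, hu⟩ := hiso z
    by_cases hbu : u ∈ A0
    · exact ⟨u, mem_filter.2 ⟨hbu, hu⟩⟩
    · have hsu : side u ≠ side b := by
        rw [← sideB z hz]
        exact (hs z u hu).symm
      obtain ⟨Q, ⟨x, hx⟩, hQb, z0, hQ⟩ := hcap u hsu hbu
      exact ⟨x, mem_filter.2 ⟨hQb hx, (hQ z hu.symm).1 x hx⟩⟩
  have st2 : ∀ Z : Finset V, Z ⊆ B → ∃ F, Built H (insert b A0 ∪ Z) F ∧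
      BookInv A0 Tr F (insert b Z) := by
    intro Z
    induction Z using Finset.induction_on_min_value (fun z => (Tr z).card) with
    | empty =>
      intro _
      refine ⟨F1, by simpa using hF1, ?_⟩
      intro Q S hQ hQA hS _
      have h1 : Cl F1 Q {b} := Cl.flip (Cl.sub hc1 hQA) hQ
      exact Cl.sub h1 (by simpa using hS)
    | insert z Z hz hord ih =>
      intro hZ
      obtain ⟨F, hF, hI⟩ := ih ((subset_insert z Z).trans hZ)
      have hzB : z ∈ B := hZ (mem_insert_self z Z)
      have h1 : Built H (insert z (insert b A0 ∪ Z)) (F ∪ {p | p.1 = Tr z ∧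
          ∃ S, Cl F (Tr z) S ∧ p.2 = insert z S}) := by
        refine Built.clone hF ?_ (trne z hzB) ?_ ?_ ?_
        · intro h2
          rcases mem_union.1 h2 with h3 | h3
          · rcases mem_insert.1 h3 with h4 | h4
            · exact (mem_filter.1 hzB).2.2 h4
            · exact sideA0 z h4 (sideB z hzB)
          · exact hz h3
        · exact (trA0 z).trans ((subset_insert b A0).trans subset_union_left)
        · intro x hx
          simp only [hTr, mem_filter]
          constructor
          · intro h2
            refine ⟨?_, h2⟩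
            rcases mem_union.1 hx with h3 | h3
            · rcases mem_insert.1 h3 with h4 | h4
              · exfalso
                exact same z b (sideB z hzB) (h4 ▸ h2)
              · exact h4
            · exfalso
              exact same z x ((sideB z hzB).trans
                (sideB x (hZ (mem_insert_of_mem h3))).symm) h2
          · exact fun h2 => h2.2
        · exact hI (Tr z) ∅ (trne z hzB) (trA0 z) (empty_subset _) ⟨z, by simp⟩
      have hord' : ∀ x ∈ insert b Z, (Tr z).card ≤ (Tr x).card := by
        intro x hx
        rcases mem_insert.1 hx with h3 | h3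
        · rw [h3, trb]
          exact Finset.card_le_card (trA0 z)
        · exact hord x h3
      have h2 := hI.step z (trA0 z) (trne z hzB) hord'
      rw [Finset.insert_comm] at h2
      refine ⟨_, ?_, h2⟩
      have e1 : insert b A0 ∪ insert z Z = insert z (insert b A0 ∪ Z) := by
        rw [Finset.union_insert]
      rw [e1]
      exact h1
  obtain ⟨F2, hF2, hI2⟩ := st2 B (Subset.refl _)
  -- third stage: the caps
  have st3 : ∀ W : Finset V, W ⊆ A1 → Built H ((insert b A0 ∪ B) ∪ W) F2 := by
    intro W
    induction W using Finset.induction_on with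
    | empty => intro _; simpa using hF2
    | insert w W hw ih =>
      intro hW
      have hF := ih ((subset_insert w W).trans hW)
      have hwA : w ∈ A1 := hW (mem_insert_self w W)
      have hws : side w ≠ side b ∧ w ∉ A0 := (mem_filter.1 hwA).2
      obtain ⟨Q, hQ, hQb, z0, hQ0⟩ := hcap w hws.1 hws.2
      have nbB : ∀ z, H.Adj w z → z ∈ insert b B := by
        intro z hz
        have h3 : side z = side b := by
          have h1 := hs w z hz
          have h2 := hws.1
          revert h1 h2
          cases side w <;> cases side z <;> cases side b <;> simp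
        by_cases h4 : z = b
        · rw [h4]; exact mem_insert_self b B
        · exact mem_insert_of_mem (mem_filter.2 ⟨mem_univ z, h3, h4⟩)
      have h1 : Built H (insert w ((insert b A0 ∪ B) ∪ W)) F2 := by
        refine Built.cap (Q := Q) (R := univ.filter fun z => H.Adj w z) hF ?_ ?_ ?_ ?_ ?_
        · intro h2
          rcases mem_union.1 h2 with h3 | h3
          · rcases mem_union.1 h3 with h4 | h4
            · rcases mem_insert.1 h4 with h5 | h5
              · exact hws.1 (by rw [h5])
              · exact hws.2 h5
            · exact hws.1 (sideB w h4)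
          · exact hw h3
        · obtain ⟨u, hu⟩ := hiso w
          exact ⟨u, by simpa using hu⟩
        · intro z hz
          rcases mem_insert.1 (nbB z (mem_filter.1 hz).2) with h3 | h3
          · rw [h3]
            exact mem_union_left _ (mem_union_left _ (mem_insert_self b A0))
          · exact mem_union_left _ (mem_union_right _ h3)
        · intro x _
          simp
        · refine hI2 Q _ hQ hQb ?_ ⟨z0, ?_⟩
          · intro z hz
            exact nbB z (mem_filter.1 hz).2
          · intro z hz
            have hz' := (mem_filter.1 hz).2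
            obtain ⟨h2, h3⟩ := hQ0 z hz'
            have h4 : Q ⊆ Tr z := by
              intro x hx
              exact mem_filter.2 ⟨hQb hx, h2 x hx⟩
            refine ⟨h4, fun h5 => Subset.antisymm ?_ h4⟩
            intro x hx
            exact h3 h5 x (mem_filter.1 hx).1 (mem_filter.1 hx).2
      rw [Finset.union_insert]
      exact h1
  have hfin := st3 A1 (Subset.refl _)
  have huniv : (insert b A0 ∪ B) ∪ A1 = univ := by
    ext x
    simp only [mem_union, mem_insert, hB, hA1, mem_filter, mem_univ, true_and, iff_true]
    by_cases h1 : x = b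
    · exact Or.inl (Or.inl (Or.inl h1))
    · by_cases h2 : side x = side b
      · exact Or.inl (Or.inr ⟨h2, h1⟩)
      · by_cases h3 : x ∈ A0
        · exact Or.inl (Or.inl (Or.inr h3))
        · exact Or.inr ⟨h2, h3⟩
  rw [huniv] at hfin
  exact ⟨F2, hfin⟩

end Vale.Agent.P050.Books
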