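import Vale.Agent.P050.R4.H115.TowDef
import Vale.Agent.P050.R4.H22.Def3

/-!
# P050, towers are built vertex by vertex
-/

namespace Vale.Agent.P050.Books

open Finset

variable {V : Type} [DecidableEq V]

theorem Der.mono {F F' : Set (Kind × Finset V × Finset V × ℕ)} (h : F ⊆ F') {κ : Kind}
    {Q P : Finset V} {l : ℕ} (hd : Der F κ Q P l) : Der F' κ Q P l := by
  induction hd with
  | base h1 => exact .base (h h1)
  | sub _ h2 ih => exact .sub ih h2
  | subr _ h2 ih => exact .subr ih h2
  | forget _ ih => exact .forget ih
  | flip _ h2 ih => exact .flip ih h2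
  | flip' _ ih => exact .flip' ih
  | exact _ ih => exact .exact ih
  | turn _ h2 h3 h4 ih => exact .turn ih h2 h3 h4
  | rturn _ h2 h3 ih => exact .rturn ih h2 h3
  | cover _ h2 h3 ih => exact .cover ih h2 h3
  | shrink _ h2 h3 ih => exact .shrink ih h2 h3
  | rough _ ih => exact .rough ih

variable [Fintype V]

/-- the number of a spine -/
noncomputable def num (H : SimpleGraph V) (lev : V → ℕ) (T : Finset V) : ℕ :=
  max 1 (T.sup fun y => (down H lev y).card)

/-- all vertices of `T` have the same neighbours one level below -/
def Flat (H : SimpleGraph V) (lev : V → ℕ) (T : Finset V) : Prop :=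
  ∀ x ∈ T, ∀ x' ∈ T, down H lev x = down H lev x'

/-- the invariant: `Z` is the set of vertices of level at least 2 added so far -/
structure TInv (H : SimpleGraph V) (lev : V → ℕ)
    (F : Set (Kind × Finset V × Finset V × ℕ)) (Z : Finset V) : Prop where
  base : ∀ T : Finset V, T.Nonempty → (∀ x ∈ T, lev x = 1) → Der F Kind.book T ∅ 1
  rough : ∀ v ∈ Z, ∀ P ⊆ Z, (∀ u ∈ P, down H lev u = down H lev v) →
    Der F Kind.rough (down H lev v) P (num H lev (down H lev v))
  book : ∀ v ∈ Z, Flat H lev (down H lev v) → ∀ P ⊆ Z, (∀ u ∈ P, down H lev u = down H lev v) →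
    Der F Kind.book (down H lev v) P (num H lev (down H lev v))
  cover : ∀ S ⊆ Z, ∀ t ∈ S, (∀ u ∈ S, ∀ u' ∈ S,
      down H lev u ⊆ down H lev u' ∨ down H lev u' ⊆ down H lev u) →
    (∀ u ∈ S, down H lev u ⊆ down H lev t) → Flat H lev (down H lev t) →
    (∀ P : Finset V, (∀ u, u ∈ P ↔ u ∈ S ∧ down H lev u = down H lev t) →
      num H lev (down H lev t) ≤ P.card) →
    ∀ Q : Finset V, Q.Nonempty → (∀ u ∈ S, Q ⊆ down H lev u) →
      Der F Kind.cover Q S (down H lev t).card

variable {H : SimpleGraph V} {lev : V → ℕ}

omit [DecidableEq V] in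
theorem mem_down {v u : V} : u ∈ down H lev v ↔ H.Adj v u ∧ lev u + 1 = lev v := by
  simp [down]

omit [DecidableEq V] in
theorem num_pos (T : Finset V) : 1 ≤ num H lev T := le_max_left _ _

omit [DecidableEq V] in
theorem num_le {T : Finset V} {m : ℕ} (hm : 1 ≤ m) (h : ∀ x ∈ T, (down H lev x).card ≤ m) :
    num H lev T ≤ m :=
  max_le hm (Finset.sup_le h)

omit [DecidableEq V] in
theorem num_eq {T : Finset V} {t : V} (ht : t ∈ T) (hne : (down H lev t).Nonempty)
    (h : ∀ u ∈ T, down H lev u ⊆ down H lev t) : num H lev T = (down H lev t).card := by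
  apply le_antisymm
  · exact num_le (card_pos.2 hne) fun x hx => card_le_card (h x hx)
  · exact (Finset.le_sup (f := fun y => (down H lev y).card) ht).trans (le_max_right _ _)

omit [DecidableEq V] in
theorem down_of_one {b : V} (ht : Tower H lev b) {x : V} (hx : lev x = 1) :
    down H lev x = ∅ := by
  refine Finset.eq_empty_of_forall_notMem fun u hu => ?_
  have h1 := (mem_down.1 hu).2
  have h2 := ht.one u
  omega

omit [DecidableEq V] in
theorem Tower.top_card {b : V} (ht : Tower H lev b) {v : V} (hv : 3 ≤ lev v) {u : V}
    (hu : u ∈ down H lev v) (hl : ∀ u' ∈ down H lev v, down H lev u' ⊆ down H lev u)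
    {P : Finset V} (hP : ∀ u' ∈ down H lev v, down H lev u' = down H lev u → u' ∈ P) :
    ∀ x ∈ down H lev u, (down H lev x).card ≤ P.card := by
  classical
  intro x hx
  refine (ht.top v hv u hu hl x hx).trans (card_le_card fun y hy => ?_)
  rw [mem_filter] at hy
  exact hP y hy.1 hy.2

omit [DecidableEq V] in
theorem Tower.flat_of_ne {b : V} (ht : Tower H lev b) {v : V} (hv : 3 ≤ lev v) {u u' : V}
    (hu : u ∈ down H lev v) (hu' : u' ∈ down H lev v) (hne : down H lev u ≠ down H lev u') :
    Flat H lev (down H lev u) := by
  classical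
  intro x hx x' hx'
  exact ht.twin v hv u hu u' hu' hne x (mem_union_left _ hx) x' (mem_union_left _ hx')

theorem spine {b : V} (ht : Tower H lev b) {F : Set (Kind × Finset V × Finset V × ℕ)}
    {Z : Finset V} (hI : TInv H lev F Z) (v : V) (hv : 2 ≤ lev v)
    (hZ : ∀ y, 2 ≤ lev y → lev y < lev v → y ∈ Z) :
    Der F Kind.rough (down H lev v) ∅ (num H lev (down H lev v)) ∧
      (Flat H lev (down H lev v) →
        Der F Kind.book (down H lev v) ∅ (num H lev (down H lev v))) := by
  have hne : (down H lev v).Nonempty := ht.dn v hv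
  by_cases h2 : lev v = 2
  · have h1 : ∀ x ∈ down H lev v, lev x = 1 := fun x hx => by
      have := (mem_down.1 hx).2
      omega
    have hn : num H lev (down H lev v) = 1 := by
      refine le_antisymm (num_le le_rfl fun x hx => ?_) (num_pos _)
      rw [down_of_one ht (h1 x hx)]
      simp
    rw [hn]
    have h3 := hI.base _ hne h1
    exact ⟨.forget h3, fun _ => h3⟩
  · have h3 : 3 ≤ lev v := by omega
    have hTZ : down H lev v ⊆ Z := fun x hx => by
      have := (mem_down.1 hx).2
      exact hZ x (by omega) (by omega)
    have hTl : ∀ x ∈ down H lev v, 2 ≤ lev x := fun x hx => by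
      have := (mem_down.1 hx).2
      omega
    obtain ⟨t, htT, hmax⟩ := Finset.exists_max_image (down H lev v)
      (fun y => (down H lev y).card) hne
    have hlarge : ∀ u ∈ down H lev v, down H lev u ⊆ down H lev t := by
      intro u hu
      rcases ht.chain v h3 u hu t htT with h4 | h4
      · exact h4
      · exact (Finset.eq_of_subset_of_card_le h4 (hmax u hu)).symm.subset
    have htne : (down H lev t).Nonempty := ht.dn t (hTl t htT)
    have hnum := num_eq htT htne hlarge
    by_cases hall : ∀ u ∈ down H lev v, down H lev u = down H lev t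
    · have h4 : Der F Kind.rough (down H lev t) (down H lev v) (num H lev (down H lev t)) :=
        hI.rough t (hTZ htT) _ hTZ hall
      have h5 : num H lev (down H lev t) ≤ (down H lev v).card := by
        exact num_le (card_pos.2 hne) (ht.top_card h3 htT hlarge fun u' hu' _ => hu')
      rw [hnum]
      refine ⟨.rturn h4 hne h5, fun _ => ?_⟩
      by_cases h6 : 2 ≤ (down H lev t).card
      · exact .turn h4 hne h5 h6
      · have h7 : (down H lev t).card = 1 := by
          have := card_pos.2 htne
          omega
        obtain ⟨a, ha⟩ := card_eq_one.1 h7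
        rw [ha] at h4
        rw [h7]
        exact .sub (.flip (.exact h4) hne) (empty_subset _)
    · push Not at hall
      obtain ⟨u, hu, hut⟩ := hall
      have hflat : Flat H lev (down H lev t) := ht.flat_of_ne h3 htT hu hut.symm
      obtain ⟨s, hsT, hmin⟩ := Finset.exists_min_image (down H lev v)
        (fun y => (down H lev y).card) hne
      have hsmall : ∀ u ∈ down H lev v, down H lev s ⊆ down H lev u := by
        intro u hu
        rcases ht.chain v h3 s hsT u hu with h4 | h4
        · exact h4
        · exact (Finset.eq_of_subset_of_card_le h4 (hmin u hu)).symm.subset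
      have h4 : Der F Kind.cover (down H lev s) (down H lev v) (down H lev t).card := by
        refine hI.cover _ hTZ t htT (ht.chain v h3) hlarge hflat ?_ _ (ht.dn s (hTl s hsT)) hsmall
        intro P hP
        exact num_le (card_pos.2 ⟨t, (hP t).2 ⟨htT, rfl⟩⟩)
          (ht.top_card h3 htT hlarge fun u' hu' h5 => (hP u').2 ⟨hu', h5⟩)
      rw [hnum]
      refine ⟨.rough h4, fun h5 => ?_⟩
      exfalso
      exact hut (h5 u hu t htT)

theorem TInv.step {b : V} (ht : Tower H lev b) {F : Set (Kind × Finset V × Finset V × ℕ)}
    {Z : Finset V} (hI : TInv H lev F Z) (v : V) (hv : 2 ≤ lev v) (hvZ : v ∉ Z)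
    (hZ : ∀ y, 2 ≤ lev y → lev y < lev v → y ∈ Z) (hZ2 : ∀ y ∈ Z, 2 ≤ lev y)
    (hord : ∀ y ∈ Z, lev y = lev v → (down H lev v).card ≤ (down H lev y).card) :
    TInv H lev (F ∪ {p | ∃ κ P m, Der F κ (down H lev v) P m ∧
      p = (κ, down H lev v, insert v P, m)}) (insert v Z) := by
  obtain ⟨hA, hB⟩ := spine ht hI v hv hZ
  set F' := F ∪ {p | ∃ κ P m, Der F κ (down H lev v) P m ∧
      p = (κ, down H lev v, insert v P, m)} with hF'
  have hmono : F ⊆ F' := Set.subset_union_left
  have hsub : ∀ P ⊆ insert v Z, v ∉ P → P ⊆ Z := by
    intro P hP hvP x hx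
    rcases mem_insert.1 (hP hx) with h1 | h1
    · exact absurd (h1 ▸ hx) hvP
    · exact h1
  have hers : ∀ P ⊆ insert v Z, P.erase v ⊆ Z := by
    intro P hP x hx
    rcases mem_insert.1 (hP (mem_of_mem_erase hx)) with h1 | h1
    · exact absurd h1 (ne_of_mem_erase hx)
    · exact h1
  -- the old records with spine `down v`
  have oldr : ∀ P ⊆ Z, (∀ u ∈ P, down H lev u = down H lev v) →
      Der F Kind.rough (down H lev v) P (num H lev (down H lev v)) := by
    intro P hP hPv
    rcases P.eq_empty_or_nonempty with h1 | ⟨w, hw⟩
    · rw [h1]; exact hA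
    · have h2 := hPv w hw
      rw [← h2]
      exact hI.rough w (hP hw) P hP fun u hu => (hPv u hu).trans h2.symm
  have oldb : Flat H lev (down H lev v) → ∀ P ⊆ Z, (∀ u ∈ P, down H lev u = down H lev v) →
      Der F Kind.book (down H lev v) P (num H lev (down H lev v)) := by
    intro hfl P hP hPv
    rcases P.eq_empty_or_nonempty with h1 | ⟨w, hw⟩
    · rw [h1]; exact hB hfl
    · have h2 := hPv w hw
      rw [← h2]
      rw [← h2] at hfl
      exact hI.book w (hP hw) hfl P hP fun u hu => (hPv u hu).trans h2.symm
  have newr : ∀ P ⊆ insert v Z, (∀ u ∈ P, down H lev u = down H lev v) →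
      Der F' Kind.rough (down H lev v) P (num H lev (down H lev v)) := by
    intro P hP hPv
    by_cases hvP : v ∈ P
    · have h1 := oldr (P.erase v) (hers P hP) fun u hu => hPv u (mem_of_mem_erase hu)
      refine .base (Or.inr ⟨Kind.rough, P.erase v, _, h1, ?_⟩)
      rw [insert_erase hvP]
    · exact Der.mono hmono (oldr P (hsub P hP hvP) hPv)
  have newb : Flat H lev (down H lev v) → ∀ P ⊆ insert v Z,
      (∀ u ∈ P, down H lev u = down H lev v) →
      Der F' Kind.book (down H lev v) P (num H lev (down H lev v)) := by
    intro hfl P hP hPv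
    by_cases hvP : v ∈ P
    · have h1 := oldb hfl (P.erase v) (hers P hP) fun u hu => hPv u (mem_of_mem_erase hu)
      refine .base (Or.inr ⟨Kind.book, P.erase v, _, h1, ?_⟩)
      rw [insert_erase hvP]
    · exact Der.mono hmono (oldb hfl P (hsub P hP hvP) hPv)
  refine ⟨fun T hT hT1 => Der.mono hmono (hI.base T hT hT1), ?_, ?_, ?_⟩
  · intro w hw P hP hPw
    rcases mem_insert.1 hw with h1 | h1
    · subst h1; exact newr P hP hPw
    · by_cases hvP : v ∈ P
      · have h2 := hPw v hvP
        rw [← h2]
        exact newr P hP fun u hu => (hPw u hu).trans h2.symm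
      · exact Der.mono hmono (hI.rough w h1 P (hsub P hP hvP) hPw)
  · intro w hw hfl P hP hPw
    rcases mem_insert.1 hw with h1 | h1
    · subst h1; exact newb hfl P hP hPw
    · by_cases hvP : v ∈ P
      · have h2 := hPw v hvP
        rw [← h2]
        rw [← h2] at hfl
        exact newb hfl P hP fun u hu => (hPw u hu).trans h2.symm
      · exact Der.mono hmono (hI.book w h1 hfl P (hsub P hP hvP) hPw)
  · intro S hS t htS hch hlarge hfl hnum Q hQ hQS
    by_cases hvS : v ∈ S
    · -- `down v` is the smallest
      have hsm : ∀ u ∈ S, down H lev v ⊆ down H lev u := by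
        intro u hu
        rcases mem_insert.1 (hS hu) with h1 | h1
        · rw [h1]
        · rcases hch v hvS u hu with h2 | h2
          · exact h2
          · obtain ⟨x, hx⟩ := ht.dn u (hZ2 u h1)
            have h3 := (mem_down.1 hx).2
            have h4 := (mem_down.1 (h2 hx)).2
            exact (Finset.eq_of_subset_of_card_le h2 (hord u h1 (by omega))).symm.subset
      by_cases hvt : down H lev v = down H lev t
      · have hall : ∀ u ∈ S, down H lev u = down H lev t := fun u hu =>
          Subset.antisymm (hlarge u hu) (hvt ▸ hsm u hu)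
        have h1 : Der F' Kind.book (down H lev t) S (num H lev (down H lev t)) := by
          rw [← hvt]
          rw [← hvt] at hfl
          exact newb hfl S hS fun u hu => (hall u hu).trans hvt.symm
        refine .shrink (.cover h1 ⟨v, hvS⟩ (hnum S fun u => ⟨fun hu => ⟨hu, hall u hu⟩,
          fun hu => hu.1⟩)) (hQS t htS) hQ
      · have htv : t ≠ v := fun h1 => hvt (by rw [h1])
        have h1 : Der F Kind.cover (down H lev v) (S.erase v) (down H lev t).card := by
          refine hI.cover (S.erase v) (hers S hS) t (mem_erase.2 ⟨htv, htS⟩) ?_ ?_ hfl ?_ _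
            (ht.dn v hv) fun u hu => hsm u (mem_of_mem_erase hu)
          · intro u hu u' hu'
            exact hch u (mem_of_mem_erase hu) u' (mem_of_mem_erase hu')
          · exact fun u hu => hlarge u (mem_of_mem_erase hu)
          · intro P hP
            refine hnum P fun u => ?_
            rw [hP u, mem_erase]
            constructor
            · rintro ⟨⟨_, h2⟩, h3⟩
              exact ⟨h2, h3⟩
            · rintro ⟨h2, h3⟩
              exact ⟨⟨fun h4 => hvt (by rw [← h4]; exact h3), h2⟩, h3⟩
        have h2 : Der F' Kind.cover (down H lev v) S (down H lev t).card := by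
          refine .base (Or.inr ⟨Kind.cover, S.erase v, _, h1, ?_⟩)
          rw [insert_erase hvS]
        exact .shrink h2 (hQS v hvS) hQ
    · exact Der.mono hmono (hI.cover S (hsub S hS hvS) t htS hch hlarge hfl hnum Q hQ hQS)

/-- the first stage: `b` and the vertices of level 1 -/
theorem first_stage {b : V} (ht : Tower H lev b) (A : Finset V) (hA : ∀ x ∈ A, lev x = 1) :
    ∃ F, BuiltC H (insert b A) F ∧ Der F Kind.book {b} A 1 := by
  induction A using Finset.induction_on with
  | empty => exact ⟨_, BuiltC.point b, Der.base rfl⟩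
  | insert a A ha ih =>
    obtain ⟨F, hF, hc⟩ := ih fun x hx => hA x (mem_insert_of_mem hx)
    have ha1 : lev a = 1 := hA a (mem_insert_self a A)
    have hb2 := ht.hub.1
    have hab : a ≠ b := fun h1 => by rw [h1] at ha1; omega
    have hadj : H.Adj b a := ht.hub.2 a ha1
    have h1 : BuiltC H (insert a (insert b A)) (F ∪ {p | ∃ κ P m, Der F κ {b} P m ∧
        p = (κ, {b}, insert a P, m)}) := by
      refine BuiltC.page (l := 1) hF ?_ (singleton_nonempty b) ?_ ?_ ?_
      · intro h2
        rcases mem_insert.1 h2 with h3 | h3
        · exact hab h3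
        · exact ha h3
      · intro x hx
        rw [mem_singleton.1 hx]
        exact mem_insert_self b A
      · intro x hx
        rw [mem_singleton]
        rcases mem_insert.1 hx with h3 | h3
        · rw [h3]; exact ⟨fun _ => rfl, fun _ => hadj.symm⟩
        · have h4 : lev x = 1 := hA x (mem_insert_of_mem h3)
          constructor
          · intro h5
            have := ht.adj a x h5
            omega
          · intro h5
            rw [h5]; exact hadj.symm
      · exact .forget (.sub hc (empty_subset _))
    rw [Finset.insert_comm] at h1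
    exact ⟨_, h1, .base (Or.inr ⟨Kind.book, A, 1, hc, rfl⟩)⟩

theorem first_inv {b : V} (ht : Tower H lev b) {L : Finset V} (hL : ∀ x, x ∈ L ↔ lev x = 1)
    {F : Set (Kind × Finset V × Finset V × ℕ)} (hc : Der F Kind.book {b} L 1) :
    TInv H lev F {b} := by
  have hb2 := ht.hub.1
  have hbook : ∀ T : Finset V, T.Nonempty → (∀ x ∈ T, lev x = 1) →
      Der F Kind.book T {b} 1 := fun T hT h1 =>
    .flip (.sub hc fun x hx => (hL x).2 (h1 x hx)) hT
  have hD1 : ∀ x ∈ down H lev b, lev x = 1 := fun x hx => by
    have := (mem_down.1 hx).2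
    omega
  have hDne : (down H lev b).Nonempty := ht.dn b (by omega)
  have hn : num H lev (down H lev b) = 1 := by
    refine le_antisymm (num_le le_rfl fun x hx => ?_) (num_pos _)
    rw [down_of_one ht (hD1 x hx)]
    simp
  refine ⟨fun T hT h1 => .sub (hbook T hT h1) (empty_subset _), ?_, ?_, ?_⟩
  · intro v hv P hP _
    rw [mem_singleton.1 hv, hn]
    exact .forget (.sub (hbook _ hDne hD1) hP)
  · intro v hv _ P hP _
    rw [mem_singleton.1 hv, hn]
    exact .sub (hbook _ hDne hD1) hP
  · intro S hS t htS _ _ _ _ Q hQ hQS
    have htb : t = b := mem_singleton.1 (hS htS)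
    have hSb : S = {b} := Subset.antisymm hS fun x hx => by
      rw [mem_singleton.1 hx, ← htb]; exact htS
    rw [hSb, htb]
    refine .shrink (.cover (hbook _ hDne hD1) (singleton_nonempty b) (by simp)) ?_ hQ
    have h1 := hQS t htS
    rwa [htb] at h1

/-- towers are built -/
theorem builtC_of_tower {V : Type} [Fintype V] [DecidableEq V] (H : SimpleGraph V)
    (lev : V → ℕ) (b : V) (ht : Tower H lev b) : ∃ F, BuiltC H univ F := by
  have hb2 := ht.hub.1
  set N : ℕ := Fintype.card V with hN
  set L : Finset V := univ.filter fun x => lev x = 1 with hL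
  set W : Finset V := univ.filter fun x => 2 ≤ lev x ∧ x ≠ b with hW
  set f : V → ℕ := fun y => lev y * (N + 1) + (N - (down H lev y).card) with hf
  have hcard : ∀ y, (down H lev y).card ≤ N := fun y => card_le_univ _
  have memL : ∀ x, x ∈ L ↔ lev x = 1 := fun x => by simp [hL]
  have memW : ∀ x, x ∈ W ↔ 2 ≤ lev x ∧ x ≠ b := fun x => by simp [hW]
  have key1 : ∀ x y, lev x < lev y → f x < f y := by
    intro x y hxy
    have h1 : (lev x + 1) * (N + 1) ≤ lev y * (N + 1) := Nat.mul_le_mul_right _ hxy
    have h2 : (lev x + 1) * (N + 1) = lev x * (N + 1) + (N + 1) := by ring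
    simp only [hf]
    omega
  have key2 : ∀ x y, f x ≤ f y → lev x ≤ lev y := by
    intro x y hxy
    by_contra h1
    have := key1 y x (by omega)
    omega
  have key3 : ∀ x y, f x ≤ f y → lev x = lev y →
      (down H lev y).card ≤ (down H lev x).card := by
    intro x y hxy h1
    have h2 := hcard x
    have h3 := hcard y
    simp only [hf, h1] at hxy
    omega
  obtain ⟨F1, hF1, hc1⟩ := first_stage ht L fun x hx => (memL x).1 hx
  have hI1 := first_inv ht memL hc1
  have st : ∀ Z : Finset V, Z ⊆ W → (∀ x ∈ Z, ∀ y ∈ W, f y < f x → y ∈ Z) →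
      ∃ F, BuiltC H (insert b L ∪ Z) F ∧ TInv H lev F (insert b Z) := by
    intro Z
    induction Z using Finset.induction_on_max_value f with
    | empty =>
      intro _ _
      refine ⟨F1, by simpa using hF1, by simpa using hI1⟩
    | insert z Z hz hord ih =>
      intro hZW hcl
      have hzW := (memW z).1 (hZW (mem_insert_self z Z))
      obtain ⟨F, hF, hI⟩ := ih ((subset_insert z Z).trans hZW) (by
        intro x hx y hy hyx
        rcases mem_insert.1 (hcl x (mem_insert_of_mem hx) y hy hyx) with h1 | h1
        · exfalso
          have := hord x hx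
          rw [h1] at hyx
          omega
        · exact h1)
      have low : ∀ y, 2 ≤ lev y → lev y < lev z → y ∈ insert b Z := by
        intro y hy hyz
        by_cases hyb : y = b
        · rw [hyb]; exact mem_insert_self b Z
        · refine mem_insert_of_mem ?_
          rcases mem_insert.1 (hcl z (mem_insert_self z Z) y ((memW y).2 ⟨hy, hyb⟩)
            (key1 y z hyz)) with h1 | h1
          · exfalso
            rw [h1] at hyz
            omega
          · exact h1
      have hZ2 : ∀ y ∈ insert b Z, 2 ≤ lev y := by
        intro y hy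
        rcases mem_insert.1 hy with h1 | h1
        · rw [h1, hb2]
        · exact ((memW y).1 (hZW (mem_insert_of_mem h1))).1
      have hzZ : z ∉ insert b Z := by
        intro h1
        rcases mem_insert.1 h1 with h2 | h2
        · exact hzW.2 h2
        · exact hz h2
      have hord' : ∀ y ∈ insert b Z, lev y = lev z →
          (down H lev z).card ≤ (down H lev y).card := by
        intro y hy hyz
        rcases mem_insert.1 hy with h1 | h1
        · rw [h1]
          refine card_le_card fun x hx => ?_
          have h2 := (mem_down.1 hx).2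
          rw [h1] at hyz
          rw [mem_down]
          exact ⟨ht.hub.2 x (by omega), by omega⟩
        · exact key3 y z (hord y h1) hyz
      obtain ⟨hA, _⟩ := spine ht hI z hzW.1 low
      have h1 : BuiltC H (insert z (insert b L ∪ Z)) (F ∪ {p | ∃ κ P m,
          Der F κ (down H lev z) P m ∧ p = (κ, down H lev z, insert z P, m)}) := by
        refine BuiltC.page hF ?_ (ht.dn z hzW.1) ?_ ?_ hA
        · intro h2
          rcases mem_union.1 h2 with h3 | h3
          · rcases mem_insert.1 h3 with h4 | h4
            · exact hzW.2 h4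
            · have := (memL z).1 h4
              omega
          · exact hz h3
        · intro x hx
          have h2 := (mem_down.1 hx).2
          by_cases h3 : lev x = 1
          · exact mem_union_left _ (mem_insert_of_mem ((memL x).2 h3))
          · have h4 := ht.one x
            rcases mem_insert.1 (low x (by omega) (by omega)) with h5 | h5
            · rw [h5]; exact mem_union_left _ (mem_insert_self b L)
            · exact mem_union_right _ h5
        · intro x hx
          rw [mem_down]
          refine ⟨fun h2 => ⟨h2, ?_⟩, fun h2 => h2.1⟩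
          have h3 : lev x ≤ lev z := by
            rcases mem_union.1 hx with h3 | h3
            · rcases mem_insert.1 h3 with h4 | h4
              · rw [h4, hb2]; exact hzW.1
              · have := (memL x).1 h4
                omega
            · exact key2 x z (hord x h3)
          rcases ht.adj z x h2 with h4 | h4
          · exact h4.symm
          · omega
      have h2 := TInv.step ht hI z hzW.1 hzZ low hZ2 hord'
      rw [Finset.insert_comm] at h2
      refine ⟨_, ?_, h2⟩
      rw [Finset.union_insert]
      exact h1
  obtain ⟨F2, hF2, _⟩ := st W (Subset.refl _) fun _ _ y hy _ => hy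
  have huniv : insert b L ∪ W = univ := by
    ext x
    simp only [mem_union, mem_insert, memL, memW, mem_univ, iff_true]
    have h1 := ht.one x
    by_cases h2 : x = b
    · exact Or.inl (Or.inl h2)
    · by_cases h3 : lev x = 1
      · exact Or.inl (Or.inr h3)
      · exact Or.inr ⟨by omega, h2⟩
  rw [huniv] at hF2
  exact ⟨F2, hF2⟩

end Vale.Agent.P050.Books
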