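import Vale.Agent.P050.R3.H257.Base

/-!
# P050, towers
-/

namespace Vale.Agent.P050.Books

open Finset

/-- the neighbours of `v` one level below -/
noncomputable def down {V : Type} [Fintype V] (H : SimpleGraph V) (lev : V → ℕ) (v : V) :
    Finset V := by
  classical exact univ.filter fun u => H.Adj v u ∧ lev u + 1 = lev v

open Classical in
/-- A tower: levels `1, 2, ...`, edges between consecutive levels only, a vertex `b` of level 2
adjacent to all vertices of level 1, each vertex of level at least 2 has a neighbour one level
below; and for each vertex `v` of level at least 3 (`chain`) the sets `down u`, for `u` in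
`down v`, are pairwise comparable; (`top`) the largest of them, `down u`, is equal to `down u'`
for at least `|down x|` vertices `u'` in `down v`, whatever `x` in `down u` is; (`twin`) if two
of them are different, all elements `x` of these two have the same set `down x`. -/
structure Tower {V : Type} [Fintype V] (H : SimpleGraph V) (lev : V → ℕ) (b : V) : Prop where
  one : ∀ v, 1 ≤ lev v
  adj : ∀ u v, H.Adj u v → lev u = lev v + 1 ∨ lev v = lev u + 1
  hub : lev b = 2 ∧ ∀ x, lev x = 1 → H.Adj b x
  dn : ∀ v, 2 ≤ lev v → (down H lev v).Nonempty
  chain : ∀ v, 3 ≤ lev v → ∀ u ∈ down H lev v, ∀ u' ∈ down H lev v,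
    down H lev u ⊆ down H lev u' ∨ down H lev u' ⊆ down H lev u
  top : ∀ v, 3 ≤ lev v → ∀ u ∈ down H lev v, (∀ u' ∈ down H lev v, down H lev u' ⊆ down H lev u) →
    ∀ x ∈ down H lev u,
      (down H lev x).card ≤ ((down H lev v).filter fun u' => down H lev u' = down H lev u).card
  twin : ∀ v, 3 ≤ lev v → ∀ u ∈ down H lev v, ∀ u' ∈ down H lev v, down H lev u ≠ down H lev u' →
    ∀ x ∈ down H lev u ∪ down H lev u', ∀ x' ∈ down H lev u ∪ down H lev u',
      down H lev x = down H lev x'

end Vale.Agent.P050.Books
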